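import Vale.Agent.P335.Main

/-!
The Kannan–Tetali–Vempala conjecture for simple graphs: the switch chain mixes in time
polynomial in `n`, uniformly over all graphical degree vectors.
-/

namespace Vale.Agent.Results.P335.KTV

open Vale.Agent.P335

theorem result :
    ∃ C k : ℕ, ∀ n : ℕ, 4 ≤ n → ∀ d : Fin n → ℕ, Nonempty (Realization d) →
      ∃ t : ℕ, t ≤ C * n ^ k ∧ ∀ G : Realization d, tvDist d t G ≤ 1 / 4 :=
  ⟨2 * (8 ^ 8 * 2 ^ 20), 222, fun _ hn _ _ => rapid_mixing hn⟩

end Vale.Agent.Results.P335.KTV
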